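import Vale.Agent.P235.K5.Wagner

/-!
# P235-K5, Wagner's theorem: (W5) type 2 against type 3 (helper201)
-/

namespace Vale.Agent.P235.K5.H201

open SimpleGraph Vale.Agent.P235.K5.W

variable {V : Type} {G : SimpleGraph V}

theorem ad_symm {X Y : Set V} (h : Ad G X Y) : Ad G Y X := by
  obtain ⟨x, hx, y, hy, h⟩ := h
  exact ⟨y, hy, x, hx, h.symm⟩

theorem ad_mono {X Y X' Y' : Set V} (h : Ad G X Y) (hX : X ⊆ X') (hY : Y ⊆ Y') : Ad G X' Y' := by
  obtain ⟨x, hx, y, hy, h⟩ := h
  exact ⟨x, hX hx, y, hY hy, h⟩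

theorem cn_union {X Y : Set V} (hX : Cn G X) (hY : Cn G Y) (h : Ad G X Y) : Cn G (X ∪ Y) := by
  obtain ⟨x, hx, y, hy, h⟩ := h
  exact connected_induce_union hX.preconnected hY.preconnected hx hy h

/-- A neighbour in the union of `U 0` and one more part. -/
theorem keep {T Y : Set V} {U : Fin 3 → Set V} (hT : Tri G T U) :
    ∃ β : Fin 3, β ≠ 0 ∧ (Ad G Y T → Ad G Y (U 0 ∪ U β)) := by
  by_cases hY : Ad G Y T
  · obtain ⟨y, hy, x, hx, h⟩ := hY
    obtain ⟨i, hi⟩ := (hT.un x).1 hx
    by_cases hi0 : i = 0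
    · refine ⟨1, by decide, fun _ => ⟨y, hy, x, Or.inl ?_, h⟩⟩
      rwa [hi0] at hi
    · exact ⟨i, hi0, fun _ => ⟨y, hy, x, Or.inr hi, h⟩⟩
  · exact ⟨1, by decide, fun h => absurd h hY⟩

/-- Both sides of the split keep their neighbours. -/
theorem keep2 {T A X Y : Set V} {U : Fin 3 → Set V} (hT : Tri G T U) (hA : X ∪ Y = A)
    (h0 : Ad G (U 0) A) : ∃ β : Fin 3, β ≠ 0 ∧ (Ad G X T → Ad G X (U 0 ∪ U β)) ∧
      (Ad G Y T → Ad G Y (U 0 ∪ U β)) := by
  obtain ⟨u, hu, x, hx, h⟩ := h0
  rw [← hA] at hx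
  rcases hx with hx | hx
  · obtain ⟨β, h1, h2⟩ := keep (Y := Y) hT
    exact ⟨β, h1, fun _ => ⟨x, hx, u, Or.inl hu, h.symm⟩, h2⟩
  · obtain ⟨β, h1, h2⟩ := keep (Y := X) hT
    exact ⟨β, h1, h2, fun _ => ⟨x, hx, u, Or.inl hu, h.symm⟩⟩

theorem third : ∀ β : Fin 3, β ≠ 0 → ∃ γ : Fin 3, γ ≠ 0 ∧ γ ≠ β ∧
    ∀ i : Fin 3, i = 0 ∨ i = β ∨ i = γ := by decide

/-- The new model. -/
theorem mod_new {A B : Fin 3 → Set V} (hM : Mod G A B) {j : Fin 3} {U : Fin 3 → Set V}
    (hT : Tri G (B j) U) (hU : ∀ i, Ad G (U i) (A i)) {β γ : Fin 3} (hβ : β ≠ 0) (hγ : γ ≠ 0)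
    (hγβ : γ ≠ β) (hall : ∀ i : Fin 3, i = 0 ∨ i = β ∨ i = γ) :
    Mod G (fun i => if i = γ then A γ ∪ U γ else A i)
      (fun k => if k = j then U 0 ∪ U β else B k) := by
  have hUB : ∀ i, U i ⊆ B j := fun i x hx => (hT.un x).2 ⟨i, hx⟩
  have hUB2 : U 0 ∪ U β ⊆ B j := Set.union_subset (hUB _) (hUB _)
  refine ⟨fun i => ?_, fun k => ?_, fun i k hik => ?_, fun i k hik => ?_, fun i k => ?_,
    fun x => ?_, fun i k => ?_⟩
  · by_cases hi : i = γ
    · simp only [hi, if_true]
      exact cn_union (hM.connA γ) (hT.cn γ) (ad_symm (hU γ))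
    · simp only [if_neg hi]
      exact hM.connA i
  · by_cases hk : k = j
    · simp only [hk, if_true]
      exact cn_union (hT.cn 0) (hT.cn β) (hT.ad 0 β (Ne.symm hβ))
    · simp only [if_neg hk]
      exact hM.connB k
  · have hd : ∀ l, l ≠ γ → Disjoint (A γ ∪ U γ) (A l) := by
      intro l hl
      rw [Set.disjoint_union_left]
      exact ⟨hM.dA γ l (Ne.symm hl), ((hM.dAB l j).mono_right (hUB γ)).symm⟩
    by_cases hi : i = γ
    · have hk : k ≠ γ := fun h => hik (hi.trans h.symm)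
      simp only [if_pos hi, if_neg hk]
      exact hd k hk
    · by_cases hk : k = γ
      · simp only [if_neg hi, if_pos hk]
        exact (hd i hi).symm
      · simp only [if_neg hi, if_neg hk]
        exact hM.dA i k hik
  · by_cases hi : i = j
    · have hk : k ≠ j := fun h => hik (hi.trans h.symm)
      simp only [if_pos hi, if_neg hk]
      exact (hM.dB j k (Ne.symm hk)).mono_left hUB2
    · by_cases hk : k = j
      · simp only [if_neg hi, if_pos hk]
        exact (hM.dB i j hi).mono_right hUB2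
      · simp only [if_neg hi, if_neg hk]
        exact hM.dB i k hik
  · by_cases hi : i = γ
    · by_cases hk : k = j
      · simp only [if_pos hi, if_pos hk]
        rw [Set.disjoint_union_left]
        refine ⟨(hM.dAB γ j).mono_right hUB2, ?_⟩
        rw [Set.disjoint_union_right]
        exact ⟨hT.dis γ 0 hγ, hT.dis γ β hγβ⟩
      · simp only [if_pos hi, if_neg hk]
        rw [Set.disjoint_union_left]
        exact ⟨hM.dAB γ k, (hM.dB j k (Ne.symm hk)).mono_left (hUB γ)⟩
    · by_cases hk : k = j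
      · simp only [if_neg hi, if_pos hk]
        exact (hM.dAB i j).mono_right hUB2
      · simp only [if_neg hi, if_neg hk]
        exact hM.dAB i k
  · rcases hM.cover x with ⟨i, hi⟩ | ⟨k, hk⟩
    · left
      by_cases h : i = γ
      · refine ⟨γ, ?_⟩
        simp only [if_true]
        exact Or.inl (h ▸ hi)
      · refine ⟨i, ?_⟩
        simp only [if_neg h]
        exact hi
    · by_cases h : k = j
      · rw [h] at hk
        obtain ⟨l, hl⟩ := (hT.un x).1 hk
        rcases hall l with h1 | h1 | h1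
        · right
          refine ⟨j, ?_⟩
          simp only [if_true]
          exact Or.inl (h1 ▸ hl)
        · right
          refine ⟨j, ?_⟩
          simp only [if_true]
          exact Or.inr (h1 ▸ hl)
        · left
          refine ⟨γ, ?_⟩
          simp only [if_true]
          exact Or.inr (h1 ▸ hl)
      · right
        refine ⟨k, ?_⟩
        simp only [if_neg h]
        exact hk
  · by_cases hk : k = j
    · by_cases hi : i = γ
      · simp only [if_pos hi, if_pos hk]
        exact ad_mono (hT.ad γ 0 hγ) Set.subset_union_right Set.subset_union_left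
      · simp only [if_neg hi, if_pos hk]
        rcases hall i with h1 | h1 | h1
        · rw [h1]
          exact ad_mono (ad_symm (hU 0)) subset_rfl Set.subset_union_left
        · rw [h1]
          exact ad_mono (ad_symm (hU β)) subset_rfl Set.subset_union_right
        · exact absurd h1 hi
    · by_cases hi : i = γ
      · simp only [if_pos hi, if_neg hk]
        exact ad_mono (hM.adj γ k) Set.subset_union_left subset_rfl
      · simp only [if_neg hi, if_neg hk]
        exact hM.adj i k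

/-- **(W5)** -/
theorem localTri (h : LocalStmt) : LocalTriStmt := by
  intro V _ G A B hM X Y hS h1 h2 h3 h4 j U hT hU
  obtain ⟨β, hβ, hX, hY⟩ := keep2 (X := X) (Y := Y) hT hS.un (hU 0)
  obtain ⟨γ, hγ, hγβ, hall⟩ := third β hβ
  have hM' := mod_new hM hT hU hβ hγ hγβ hall
  have kX : ∀ k, Ad G X (B k) → Ad G X (if k = j then U 0 ∪ U β else B k) := by
    intro k hk
    by_cases hkj : k = j
    · rw [if_pos hkj]
      rw [hkj] at hk
      exact hX hk
    · rw [if_neg hkj]
      exact hk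
  have kY : ∀ k, Ad G Y (B k) → Ad G Y (if k = j then U 0 ∪ U β else B k) := by
    intro k hk
    by_cases hkj : k = j
    · rw [if_pos hkj]
      rw [hkj] at hk
      exact hY hk
    · rw [if_neg hkj]
      exact hk
  refine h V G _ _ hM' X Y ?_ (kX 0 h1) (kX 1 h2) (kY 1 h3) (kY 2 h4) j (U 0) (U β) ?_
    0 γ β γ (Ne.symm hγ) ?_ ?_ (Ne.symm hγβ) ?_ ?_
  · simp only [if_neg (Ne.symm hγ)]
    exact hS
  · simp only [if_true]
    exact ⟨rfl, hT.dis 0 β (Ne.symm hβ), hT.cn 0, hT.cn β, hT.ad 0 β (Ne.symm hβ)⟩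
  · simp only [if_neg (Ne.symm hγ)]
    exact hU 0
  · simp only [if_true]
    exact ad_mono (hT.ad 0 γ (Ne.symm hγ)) subset_rfl Set.subset_union_right
  · simp only [if_neg (Ne.symm hγβ)]
    exact hU β
  · simp only [if_true]
    exact ad_mono (hT.ad β γ (Ne.symm hγβ)) subset_rfl Set.subset_union_right

end Vale.Agent.P235.K5.H201
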